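import Vale.Agent.P363W18.St

/-! Working forms of the definitions. -/

namespace Vale.Agent.P363W18

open MeasureTheory Vale.Agent.P363.Stmt Vale.Agent.P370S
open Vale.Agent.P363L (IsEnsemble)
open scoped ComplexConjugate

noncomputable section

variable {N : ℕ}

/-- density of a vector -/
def dens {n : ℕ} (ψ : Fer (n + 1)) (r : R3) : ℝ :=
  (n + 1 : ℝ) * ∑ s, intR fun y : Conf n => ‖ψ.1 s (Fin.cons r y)‖ ^ 2

/-- one-body multiplication form -/
def oneBody (φ : R3 → ℝ) (ψ η : Fer N) : ℂ :=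
  ∑ s, intC fun x => sumPotential φ x * (conj (ψ.1 s x) * η.1 s x)

/-- density of an operator -/
def IsDensity (Γ : Fer N →L[ℂ] Fer N) (ρ : R3 → ℝ) : Prop :=
  Integrable ρ ∧ ∀ φ : R3 → ℝ, Measurable φ → (∃ C, ∀ r, |φ r| ≤ C) →
    ∀ (ι : Type) (b : HilbertBasis ι ℂ (Fer N)),
      HasSum (fun j => oneBody φ (b j) (Γ (b j))) ((∫ r, φ r * ρ r : ℝ) : ℂ)

/-- representability -/
def Representable (N : ℕ) (ρ : R3 → ℝ) : Prop :=
  ∃ v, MemV v ∧ ∃ Γ : Fer N →L[ℂ] Fer N, IsEnsemble (ham (sumPotential v)) Γ ∧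
    ∃ m, IsDensity Γ m ∧ AE3 fun r => ρ r = m r

end

end Vale.Agent.P363W18
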