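import Vale.Agent.P363W18.Tr
import Vale.Agent.P370S.Rep
import Vale.Agent.P363.H884.Sub

/-! Densities of vectors and of states. -/

namespace Vale.Agent.P363W18

open MeasureTheory Filter Topology Vale.Agent.P363.Stmt Vale.Agent.P370S
open Vale.Agent.P363.H382
open Vale.Agent.P363L (infSpec groundSpace IsState IsEnsemble IsPotential)
open scoped ComplexConjugate ENNReal

noncomputable section

attribute [local instance] complete

variable {n : ℕ}

theorem int_sq {N : ℕ} (ψ : Fer N) (s : Spn N) : Integrable fun x => ‖ψ.1 s x‖ ^ 2 :=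
  (memLp_two_iff_integrable_sq_norm (Lp.memLp (ψ.1 s)).1).1 (Lp.memLp _)

theorem int_bdd {N : ℕ} (ψ : Fer N) (s : Spn N) {φ : R3 → ℝ} (hφ : Measurable φ) {C : ℝ}
    (hC : ∀ r, |φ r| ≤ C) (i : Fin N) : Integrable fun x : Conf N => φ (x i) * ‖ψ.1 s x‖ ^ 2 :=
  (int_sq ψ s).bdd_mul (c := C) (hφ.comp (measurable_pi_apply i)).aestronglyMeasurable
    (Eventually.of_forall fun x => hC _)

theorem dens_eq (ψ : Fer (n + 1)) : dens ψ = fun r =>
    (n + 1 : ℝ) * ∑ s, ∫ y : Conf n, ‖ψ.1 s (Fin.cons r y)‖ ^ 2 := rfl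

theorem dens_int (ψ : Fer (n + 1)) : Integrable (dens ψ) := by
  rw [dens_eq]
  refine (integrable_finsetSum _ fun s _ => ?_).const_mul _
  exact (integrable_unc_iff.2 (int_sq ψ s)).integral_prod_left

theorem dens_nonneg (ψ : Fer (n + 1)) (r : R3) : 0 ≤ dens ψ r := by
  rw [dens_eq]
  positivity

theorem one_perm (ψ : Fer (n + 1)) (φ : R3 → ℝ) (i : Fin (n + 1)) :
    ∑ s, ∫ x : Conf (n + 1), φ (x i) * ‖ψ.1 s x‖ ^ 2 =
      ∑ s, ∫ x : Conf (n + 1), φ (x 0) * ‖ψ.1 s x‖ ^ 2 := by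
  rw [← Equiv.sum_comp (spinE (Equiv.swap 0 i))
    (fun s => ∫ x : Conf (n + 1), φ (x 0) * ‖ψ.1 s x‖ ^ 2)]
  refine Finset.sum_congr rfl fun s _ => ?_
  rw [spinE_apply, ← integral_perm (Equiv.swap 0 i)
    (fun x : Conf (n + 1) => φ (x 0) * ‖ψ.1 (s ∘ Equiv.swap 0 i) x‖ ^ 2)]
  refine integral_congr_ae ?_
  filter_upwards [ψ.2 (Equiv.swap 0 i) s] with x hx
  rw [hx, norm_mul, norm_sign, one_mul]
  simp

theorem dens_real (ψ : Fer (n + 1)) {φ : R3 → ℝ} (hφ : Measurable φ) {C : ℝ}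
    (hC : ∀ r, |φ r| ≤ C) :
    ∫ r, φ r * dens ψ r = ∑ s, ∫ x, sumPotential φ x * ‖ψ.1 s x‖ ^ 2 := by
  have h1 : ∑ s, ∫ x, sumPotential φ x * ‖ψ.1 s x‖ ^ 2 =
      ∑ i : Fin (n + 1), ∑ s, ∫ x : Conf (n + 1), φ (x i) * ‖ψ.1 s x‖ ^ 2 := by
    rw [Finset.sum_comm]
    refine Finset.sum_congr rfl fun s _ => ?_
    rw [← integral_finsetSum _ fun i _ => int_bdd ψ s hφ hC i]
    simp only [sumPotential, Finset.sum_mul]
  have h2 : ∀ r, φ r * dens ψ r = (n + 1 : ℝ) *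
      ∑ s, (φ r * ∫ y : Conf n, ‖ψ.1 s (Fin.cons r y)‖ ^ 2) := by
    intro r
    rw [dens_eq, ← Finset.mul_sum]
    ring
  rw [h1, Finset.sum_congr rfl fun i _ => one_perm ψ φ i]
  simp only [h2]
  rw [integral_const_mul,
    integral_finsetSum _ fun s _ => integrable_unc_mul φ (int_bdd ψ s hφ hC 0),
    Finset.sum_congr rfl fun s _ => int_unc_mul φ (int_bdd ψ s hφ hC 0)]
  simp

theorem dens_pair (ψ : Fer (n + 1)) {φ : R3 → ℝ} (hφ : Measurable φ) {C : ℝ}
    (hC : ∀ r, |φ r| ≤ C) : oneBody φ ψ ψ = ((∫ r, φ r * dens ψ r : ℝ) : ℂ) := by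
  rw [dens_real ψ hφ hC, Complex.ofReal_sum]
  refine Finset.sum_congr rfl fun s _ => ?_
  rw [← integral_complex_ofReal, intC_eq]
  congr 1
  funext x
  rw [Complex.conj_mul']
  push_cast
  rfl

theorem dens_total (ψ : Fer (n + 1)) : ∫ r, dens ψ r = (n + 1 : ℝ) * ‖ψ‖ ^ 2 := by
  have h := dens_real ψ (φ := fun _ => 1) measurable_const (C := 1) (by simp)
  simp only [one_mul, sumPotential, Finset.sum_const, Finset.card_univ, Fintype.card_fin,
    nsmul_eq_mul, mul_one, integral_const_mul, ← norm_LC, ← Finset.mul_sum] at h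
  rw [h, show ‖ψ‖ = ‖ψ.1‖ from rfl, PiLp.norm_sq_eq_of_L2]
  push_cast
  rfl

/-- the multiplication by `∑ᵢ φ(xᵢ)` as a bounded operator. -/
theorem exists_mul {N : ℕ} {φ : R3 → ℝ} (hφ : Measurable φ) {C : ℝ} (hC : ∀ r, |φ r| ≤ C) :
    ∃ M : Fer N →L[ℂ] Fer N, ∀ ψ η, inner ℂ ψ (M η) = oneBody φ ψ η := by
  have hg : MemLp (fun x : Conf N => (sumPotential φ x : ℂ)) ∞ volume := by
    refine memLp_top_of_bound ?_ (N * C) (Eventually.of_forall fun x => ?_)
    · exact (Complex.measurable_ofReal.comp (Finset.measurable_fun_sum _ fun i _ =>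
        hφ.comp (measurable_pi_apply i))).aestronglyMeasurable
    · rw [Complex.norm_real, Real.norm_eq_abs]
      refine (Finset.abs_sum_le_sum_abs _ _).trans
        ((Finset.sum_le_card_nsmul _ _ C fun i _ => hC _).trans (le_of_eq ?_))
      simp
  let m : LC N →L[ℂ] LC N := (ContinuousLinearMap.mul ℂ ℂ).holderL volume ∞ 2 2 (hg.toLp _)
  have hm : ∀ f : LC N, m f =ᵐ[volume] fun x => (sumPotential φ x : ℂ) * f x := fun f => by
    filter_upwards [(ContinuousLinearMap.mul ℂ ℂ).coeFn_holder (r := 2) (hg.toLp _) f,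
      hg.coeFn_toLp] with x h1 h2
    exact h1.trans (by rw [h2]; rfl)
  let P : Spn N → Fer N →L[ℂ] LC N := fun s =>
    (PiLp.proj 2 (fun _ : Spn N => LC N) s).comp (Fer N).subtypeL
  refine ⟨∑ s, ContinuousLinearMap.adjoint (P s) ∘L (m ∘L P s), fun ψ η => ?_⟩
  simp only [sum_apply, inner_sum, ContinuousLinearMap.comp_apply,
    ContinuousLinearMap.adjoint_inner_right]
  refine Finset.sum_congr rfl fun s _ => ?_
  rw [inner_LC, intC_eq]
  refine integral_congr_ae ?_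
  filter_upwards [hm (η.1 s)] with x hx
  change conj (ψ.1 s x) * m (η.1 s) x = _
  rw [hx]
  ring

theorem ae_eq_of_pair {ρ ρ' : R3 → ℝ} (h : Integrable ρ) (h' : Integrable ρ')
    (e : ∀ φ : R3 → ℝ, Measurable φ → (∃ C, ∀ r, |φ r| ≤ C) →
      ∫ r, φ r * ρ r = ∫ r, φ r * ρ' r) : ρ =ᵐ[volume] ρ' := by
  refine Integrable.ae_eq_of_forall_setIntegral_eq _ _ h h' fun t ht _ => ?_
  have := e (t.indicator fun _ => 1) (measurable_const.indicator ht)
    ⟨1, fun r => by by_cases hr : r ∈ t <;> simp [hr]⟩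
  simpa only [← Set.indicator_mul_left, one_mul, integral_indicator ht] using this

theorem IsDensity.unique {N : ℕ} {Γ : Fer N →L[ℂ] Fer N} {ρ ρ' : R3 → ℝ} (h : IsDensity Γ ρ)
    (h' : IsDensity Γ ρ') : ρ =ᵐ[volume] ρ' := by
  obtain ⟨w, b, -⟩ := exists_hilbertBasis ℂ (Fer N)
  refine ae_eq_of_pair h.1 h'.1 fun φ h1 h2 => ?_
  exact_mod_cast (h.2 φ h1 h2 w b).unique (h'.2 φ h1 h2 w b)

theorem inner_sm {H : Type} [NormedAddCommGroup H] [InnerProductSpace ℂ H] (c : ℂ)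
    (M : H →L[ℂ] H) (x : H) :
    inner ℂ (c • x) (M (c • x)) = ((‖c‖ ^ 2 : ℝ) : ℂ) * inner ℂ x (M x) := by
  rw [map_smul, inner_smul_left, inner_smul_right, ← mul_assoc, Complex.conj_mul']
  push_cast
  rfl

theorem dens_smul (c : ℂ) (ψ : Fer (n + 1)) :
    dens (c • ψ) =ᵐ[volume] fun r => ‖c‖ ^ 2 * dens ψ r := by
  refine ae_eq_of_pair (dens_int _) ((dens_int ψ).const_mul _) fun φ h1 ⟨C, h2⟩ => ?_
  obtain ⟨M, hM⟩ := exists_mul (N := n + 1) h1 h2
  have e1 := dens_pair (c • ψ) h1 h2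
  rw [← hM, inner_sm c M ψ, hM, dens_pair ψ h1 h2] at e1
  have e2 : ∫ r, φ r * (‖c‖ ^ 2 * dens ψ r) = ‖c‖ ^ 2 * ∫ r, φ r * dens ψ r := by
    rw [← integral_const_mul]
    congr 1
    funext r
    ring
  rw [e2]
  exact_mod_cast e1.symm

/-- the density of a mixture. -/
theorem mix_density {ι : Type} [Countable ι] (ψ : ι → Fer (n + 1)) {a : ℝ}
    (hψ : HasSum (fun i => ‖ψ i‖ ^ 2) a) (Γ : Fer (n + 1) →L[ℂ] Fer (n + 1))
    (hΓ : ∀ f, HasSum (fun i => inner ℂ (ψ i) f • ψ i) (Γ f)) :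
    IsDensity Γ (fun r => ∑' i, dens (ψ i) r) ∧ (∀ᵐ r, Summable fun i => dens (ψ i) r) ∧
      ∫ r, ∑' i, dens (ψ i) r = (n + 1 : ℝ) * a := by
  have hs : HasSum (fun i => ∫ r, dens (ψ i) r) ((n + 1 : ℝ) * a) := by
    simpa only [dens_total] using hψ.mul_left (n + 1 : ℝ)
  obtain ⟨h1, h2⟩ := P363.H884.summable_ae_of_integral (fun i => dens_int (ψ i))
    (fun i => dens_nonneg (ψ i)) hs.summable
  have key : ∀ φ : R3 → ℝ, Measurable φ → ∀ C, (∀ r, |φ r| ≤ C) →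
      HasSum (fun i => ∫ r, φ r * dens (ψ i) r) (∫ r, φ r * ∑' i, dens (ψ i) r) := by
    intro φ hφ C hC
    have hi : ∀ i, Integrable fun r => φ r * dens (ψ i) r := fun i =>
      (dens_int (ψ i)).bdd_mul (c := C) hφ.aestronglyMeasurable (Eventually.of_forall hC)
    have h3 := hasSum_integral_of_summable_integral_norm hi (by
      refine Summable.of_nonneg_of_le (fun i => integral_nonneg fun r => norm_nonneg _)
        (fun i => ?_) (hs.summable.mul_left C)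
      rw [← integral_const_mul]
      refine integral_mono (hi i).norm ((dens_int _).const_mul C) fun r => ?_
      simp only [norm_mul, Real.norm_eq_abs, abs_of_nonneg (dens_nonneg (ψ i) r)]
      exact mul_le_mul_of_nonneg_right (hC r) (dens_nonneg _ _))
    simpa only [tsum_mul_left] using h3
  refine ⟨⟨h2, fun φ hφ ⟨C, hC⟩ κ b => ?_⟩, h1, ?_⟩
  · obtain ⟨M, hM⟩ := exists_mul (N := n + 1) hφ hC
    have h4 := (trace_mix ψ hψ.summable Γ M hΓ b).2
    simp only [hM, dens_pair _ hφ hC] at h4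
    rwa [(Complex.hasSum_ofReal.2 (key φ hφ C hC)).tsum_eq] at h4
  · have := key (fun _ => 1) measurable_const 1 (by simp)
    simp only [one_mul] at this
    exact this.unique hs

theorem pure_density (ψ : Fer (n + 1)) : IsDensity (InnerProductSpace.rankOne ℂ ψ ψ) (dens ψ) := by
  have h := (mix_density (fun _ : Unit => ψ) (a := ‖ψ‖ ^ 2) (by simpa using hasSum_unique _)
    (InnerProductSpace.rankOne ℂ ψ ψ) fun f => by simpa using hasSum_unique _).1
  simpa using h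

end

end Vale.Agent.P363W18
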