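import Vale.Agent.P363W18.Main

/-! Transfer to the definitions of the statement. -/

namespace Vale.Agent.P363L

open MeasureTheory Vale.Agent.P363.Stmt Vale.Agent.P370T
open scoped ComplexConjugate

theorem dens_eq {n : ℕ} (ψ : HN (n + 1)) : dens ψ = P363W18.dens ψ := rfl

theorem isDensity_iff {N : ℕ} {Γ : HN N →L[ℂ] HN N} {ρ : R3 → ℝ} :
    IsDensity Γ ρ ↔ P363W18.IsDensity Γ ρ :=
  ⟨fun h => ⟨memLp_one_iff_integrable.1 h.1, fun φ h1 h2 => h.2 φ ⟨h1, h2⟩⟩,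
    fun h => ⟨memLp_one_iff_integrable.2 h.1, fun φ h1 => h.2 φ h1.1 h1.2⟩⟩

theorem ham_eq {N : ℕ} (w : Conf N → ℝ) : ham w = P370S.ham w := rfl

theorem rep_of {N : ℕ} {ρ : R3 → ℝ} (h : Representable N ρ) : P363W18.Representable N ρ := by
  obtain ⟨v, hv, Γ, h1, m, h2, h3⟩ := h
  exact ⟨v, hv, Γ, h1, m, isDensity_iff.1 h2, h3⟩

theorem ops (n : ℕ) (w : Conf (n + 1) → ℝ) (h : IsPotential w) :
    (∀ φ ∈ H1 (n + 1), ∀ ψ ∈ H1 (n + 1), ∀ s,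
      Integrable (fun x => w x * (conj (wf φ s x) * wf ψ s x)) (lebN (n + 1)).volume) ∧
    Good (H1 (n + 1)) (formH w) := by
  obtain ⟨h1, h2, h3, h4, h5, h6⟩ := P363W18.ham_spec h
  exact ⟨fun φ a ψ b => h1.int φ ψ a b, h1.dense, h1.low, h1.closed, Set.ext_iff.1 h2,
    ⟨P370S.complete _, h3⟩, h4, h5, h6⟩

theorem mixes (n : ℕ) (w : Conf (n + 1) → ℝ) (h : IsPotential w)
    (Γ : HN (n + 1) →L[ℂ] HN (n + 1)) (hΓ : IsEnsemble (ham w) Γ) :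
    ∃ ψ : ℕ → HN (n + 1), (∀ k, ψ k ∈ groundSpace (ham w)) ∧ HasSum (fun k => ‖ψ k‖ ^ 2) 1 ∧
      (∀ f, HasSum (fun k => inner ℂ (ψ k) f • ψ k) (Γ f)) ∧
      IsDensity Γ fun r => ∑' k, dens (ψ k) r := by
  obtain ⟨ψ, h1, h2, h3, h4⟩ := P363W18.ens_mix h hΓ
  exact ⟨ψ, h1, h2, h3, isDensity_iff.2 h4⟩

theorem states (n : ℕ) (Γ : HN (n + 1) →L[ℂ] HN (n + 1)) (h : IsState Γ) :
    (∀ (ι : Type) (b : HilbertBasis ι ℂ (HN (n + 1))),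
      HasSum (fun j => inner ℂ (b j) (Γ (b j))) 1) ∧
    ∃ ρ, IsDensity Γ ρ ∧ (∀ r, 0 ≤ ρ r) ∧ int3 ρ = n + 1 ∧
      ∀ ρ', IsDensity Γ ρ' → AE3 fun r => ρ' r = ρ r := by
  obtain ⟨ρ, h1, h2, h3, h4⟩ := P363W18.state_density h
  exact ⟨P363W18.state_trace h, ρ, isDensity_iff.2 h1, h2, h3,
    fun ρ' h' => h4 ρ' (isDensity_iff.1 h')⟩

theorem pure (n : ℕ) (ψ : HN (n + 1)) (h : ‖ψ‖ = 1) :
    IsState (InnerProductSpace.rankOne ℂ ψ ψ) ∧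
      IsDensity (InnerProductSpace.rankOne ℂ ψ ψ) (dens ψ) :=
  haveI : CompleteSpace (HN (n + 1)) := P370S.complete _
  ⟨P363W18.isState_rankOne h, isDensity_iff.2 (P363W18.pure_density ψ)⟩

theorem atoms : ∃ Z₀ : ℕ, ∀ Z : ℕ, Z₀ ≤ Z → ∃ ψ : HN (4 + 1),
    ψ ∈ groundSpace (ham (coulombPotential (fun _ : Fin 1 => Z) fun _ => 0)) ∧ ‖ψ‖ = 1 ∧
      ¬ Representable (4 + 1) (dens ψ) := by
  obtain ⟨Z₀, h⟩ := P363W18.atoms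
  refine ⟨Z₀, fun Z hZ => ?_⟩
  obtain ⟨ψ, h1, h2, h3⟩ := h Z hZ
  exact ⟨ψ, h1, h2, fun h4 => h3 (rep_of h4)⟩

theorem not_Q1 : ¬ Q1 := by
  intro h
  obtain ⟨Z₀, h1⟩ := atoms
  obtain ⟨ψ, a1, a2, a3⟩ := h1 (Z₀ + 1) (by omega)
  exact a3 (h 4 1 le_rfl (fun _ => Z₀ + 1) (fun _ => by omega) (fun _ => 0)
    (Function.injective_of_subsingleton _) ψ a1 a2)

end Vale.Agent.P363L
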