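import Vale.Agent.P363W18.Defs
import Vale.Agent.P370S.Rep
import Vale.Agent.P363.H382.Forms
import Vale.Agent.P363.H700.Form1
import Vale.Agent.P363.R801.H2

/-! The potentials of the problem are form bounded; ground states are the minimisers. -/

namespace Vale.Agent.P363W18

open MeasureTheory Filter Topology Vale.Agent.P363.Stmt Vale.Agent.P370S
open Vale.Agent.P363.H382 Vale.Agent.P363.R.Sob
open Vale.Agent.P363L (infSpec groundSpace IsState IsEnsemble IsPotential)
open scoped ComplexConjugate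

noncomputable section

attribute [local instance] complete

theorem hd_coul {N M : ℕ} (Z : Fin M → ℕ) (R : Fin M → R3) :
    Hd (coulombPotential Z R : Conf N → ℝ) := by
  have h1 : Hd fun x : Conf N => ∑ i, ∑ j, -((Z j : ℝ) / ‖x i - R j‖) := by
    refine Hd.sum _ fun i _ => Hd.sum _ fun j _ => ?_
    have := (Hd.coul (P363.R801.prj i) (R j) i (P363.R801.prj_dir i)).mul (-(Z j : ℝ))
    convert this using 2 with x
    simp only [P363.R801.prj, ContinuousLinearMap.proj_apply]
    ring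
  have h2 : Hd fun x : Conf N => ∑ i, ∑ k ∈ Finset.Ioi i, 1 / ‖x i - x k‖ := by
    refine Hd.sum _ fun i _ => Hd.sum _ fun k hk => ?_
    have := Hd.coul (P363.R801.prj i - P363.R801.prj k) 0 i
      (P363.R801.prj_sub_dir (ne_of_lt (Finset.mem_Ioi.1 hk)))
    simpa only [P363.R801.prj, ContinuousLinearMap.sub_apply, ContinuousLinearMap.proj_apply,
      sub_zero] using this
  exact h1.add h2

theorem sum_bound {n : ℕ} {v : R3 → ℝ} (hv : MemV v) : ∃ C : ℝ, 0 ≤ C ∧ ∀ u : HS (n + 1),
    (∀ s, Integrable fun x => |sumPotential v x| * ‖u.1 (s, none) x‖ ^ 2) ∧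
    ∑ s, ∫ x, |sumPotential v x| * ‖u.1 (s, none) x‖ ^ 2 ≤
      1 / 4 * kin u.1 + C * ‖am u.1‖ ^ 2 := by
  have hε : (0 : ℝ) < 1 / 4 := by norm_num
  refine ⟨(n + 1) * |P363.H700.formC hv hε|, by positivity, fun u => ?_⟩
  have hb := fun s i => P363.H700.form_bound_conf i (Lp.memLp (u.1 (s, none)))
    (fun k => Lp.memLp (u.1 (s, some (i, k)))) (fun k => u.2 s i k) hv hε
  have hi : ∀ s i, Integrable fun x : Conf (n + 1) => |v (x i)| * ‖u.1 (s, none) x‖ ^ 2 :=
    fun s i => (hb s i).1.abs.congr (Eventually.of_forall fun x => by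
      simp only [abs_mul, abs_pow, abs_norm])
  have hI : ∀ s, Integrable fun x => sumPotential v x * ‖u.1 (s, none) x‖ ^ 2 := fun s => by
    simp only [sumPotential, Finset.sum_mul]
    exact integrable_finsetSum _ fun i _ => (hb s i).1
  have hA : ∀ s, Integrable fun x => |sumPotential v x| * ‖u.1 (s, none) x‖ ^ 2 := fun s =>
    (hI s).abs.congr (Eventually.of_forall fun x => by simp only [abs_mul, abs_pow, abs_norm])
  refine ⟨hA, ?_⟩
  rw [norm_am_sq, kin, Finset.mul_sum, Finset.mul_sum, ← Finset.sum_add_distrib]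
  refine Finset.sum_le_sum fun s _ => ?_
  calc ∫ x, |sumPotential v x| * ‖u.1 (s, none) x‖ ^ 2
      ≤ ∫ x, ∑ i, |v (x i)| * ‖u.1 (s, none) x‖ ^ 2 := by
        refine integral_mono (hA s) (integrable_finsetSum _ fun i _ => hi s i) fun x => ?_
        simp only [← Finset.sum_mul]
        exact mul_le_mul_of_nonneg_right (Finset.abs_sum_le_sum_abs _ _) (sq_nonneg _)
    _ = ∑ i, ∫ x, |v (x i)| * ‖u.1 (s, none) x‖ ^ 2 := integral_finsetSum _ fun i _ => hi s i
    _ ≤ ∑ i : Fin (n + 1), (1 / 4 * ∑ k, ‖u.1 (s, some (i, k))‖ ^ 2 +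
          |P363.H700.formC hv hε| * ‖u.1 (s, none)‖ ^ 2) := by
        refine Finset.sum_le_sum fun i _ => (hb s i).2.trans ?_
        simp only [← norm_LC]
        gcongr
        exact le_abs_self _
    _ = _ := by
        rw [Finset.sum_add_distrib, ← Finset.mul_sum]
        simp only [Finset.sum_const, Finset.card_univ, Fintype.card_fin, nsmul_eq_mul]
        push_cast
        ring

theorem rep_sum {n : ℕ} {v : R3 → ℝ} (hv : MemV v) :
    ∃ V, Rep (sumPotential v : Conf (n + 1) → ℝ) V := by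
  obtain ⟨C, hC, h⟩ := sum_bound (n := n) hv
  have hw : FBd (sumPotential v : Conf (n + 1) → ℝ) := by
    refine ⟨?_, fun u => (h u).1, 1 / 4 + C, by positivity, fun u => (h u).2.trans ?_⟩
    · refine Finset.aestronglyMeasurable_fun_sum _ fun i _ => ?_
      exact P363.H700.aesm_comp_proj (P363.H518.insE i) (P363.H518.insE_mp i)
        (p := fun x => x i) (fun q => by simp) (P363.H700.memV_aesm hv)
    · have h1 : ‖u‖ ^ 2 = ‖am u.1‖ ^ 2 + kin u.1 := norm_sq_eq u.1
      rw [h1]
      nlinarith [kin_nonneg u.1, sq_nonneg ‖am u.1‖, mul_nonneg hC (kin_nonneg u.1)]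
  have e : ∀ u w : FS (n + 1), inner ℂ u (ContinuousLinearMap.adjoint
      (InnerProductSpace.continuousLinearMapOfBilin (pull incl (formW _ hw))) w) =
      potB (sumPotential v) (incl u) (incl w) := fun u w => by
    rw [ContinuousLinearMap.adjoint_inner_right, InnerProductSpace.continuousLinearMapOfBilin_apply]
    rfl
  refine ⟨ContinuousLinearMap.adjoint
    (InnerProductSpace.continuousLinearMapOfBilin (pull incl (formW _ hw))),
    fun u w s => hw.int_mul (incl u) (incl w) s, fun u w => e u w, C, hC, fun u => ?_⟩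
  rw [e]
  have h1 := formW_self _ hw (incl u)
  have h2 := (h (incl u)).2
  have h3 : (potB (sumPotential v) (incl u) (incl u)).re =
      ∑ s, ∫ x, sumPotential v x * ‖u.1 (s, none) x‖ ^ 2 := h1
  rw [h3]
  refine le_trans (neg_le_neg h2) ?_
  rw [← Finset.sum_neg_distrib]
  refine Finset.sum_le_sum fun s _ => ?_
  rw [← integral_neg]
  refine integral_mono ((h (incl u)).1 s).neg (hw.int' (incl u) s) fun x => ?_
  have := neg_abs_le (sumPotential v x)
  change -(|sumPotential v x| * ‖u.1 (s, none) x‖ ^ 2) ≤ sumPotential v x * ‖u.1 (s, none) x‖ ^ 2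
  nlinarith [sq_nonneg ‖u.1 (s, none) x‖]

theorem _root_.Vale.Agent.P363L.IsPotential.rep {n : ℕ} {w : Conf (n + 1) → ℝ} (h : IsPotential w) : ∃ V, Rep w V := by
  rcases h with ⟨v, hv, rfl⟩ | ⟨M, Z, R, rfl⟩
  · exact rep_sum hv
  · exact (hd_coul Z R).rep

section abs

variable {W H : Type} [NormedAddCommGroup W] [InnerProductSpace ℂ W] [CompleteSpace W]
  [NormedAddCommGroup H] [InnerProductSpace ℂ H] [CompleteSpace H]
  {J : W →L[ℂ] H} {B : W →L[ℂ] W} {A : H →ₗ.[ℂ] H}

theorem kit_ground (h : Kit J B A) (hne : (vals J B).Nonempty) {u : H} :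
    u ∈ groundSpace A ↔ ∃ x, J x = u ∧ (inner ℂ x (B x)).re = infSpec A * ‖u‖ ^ 2 := by
  have hE : infSpec A = sInf (vals J B) := (h.isLeast hne).csInf_eq
  unfold groundSpace
  rw [Set.mem_setOf_eq, h.gr]
  refine exists_congr fun x => and_congr_right fun hx => ?_
  dsimp only at hx ⊢
  subst hx
  constructor
  · intro hh
    rw [hh x, inner_smul_right, ← inner_self_eq_norm_sq (𝕜 := ℂ)]
    exact Complex.re_ofReal_mul _ _
  · intro hh y
    let B' : W →L⋆[ℂ] W →L[ℂ] ℂ := ((ContinuousLinearMap.compL ℂ W W ℂ).flip B).comp (innerSL ℂ)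
    have hB' : ∀ a b, B' a b = inner ℂ a (B b) := fun a b => rfl
    have hH : P363.H382.Abs.Herm B' := fun a b => by rw [hB', hB', inner_conj_symm, h.sa]
    have := P363.H382.Abs.euler_lagrange (B := B') (J := J) (E := infSpec A) hH
      (fun a => hE ▸ h.low a) hh y
    rw [← hB', ← hH x y, this, map_mul, inner_conj_symm, inner_smul_right]
    simp

theorem kit_closed (h : Kit J B A) :
    ∃ K : Submodule ℂ H, IsClosed (K : Set H) ∧ (K : Set H) = groundSpace A := by
  refine ⟨A.graph.comap ((LinearMap.id : H →ₗ[ℂ] H).prod ((infSpec A : ℂ) • LinearMap.id)), ?_, rfl⟩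
  have hc : IsClosed (A.graph : Set (H × H)) := h.selfAdjoint.isClosed
  exact hc.preimage (f := fun u : H => (u, (infSpec A : ℂ) • u)) (by fun_prop)

end abs

variable {N : ℕ} {w : Conf N → ℝ} {V : FS N →L[ℂ] FS N}

theorem rep_inf (h : Rep w V) : infSpec (ham w) = sInf (vals (JF N) (opB V)) :=
  h.isLeast.csInf_eq

theorem rep_low (h : Rep w V) (Φ : ElectronState N) (hΦ : normSq Φ = 1) :
    infSpec (ham w) ≤ energy w Φ := by
  have := h.kit.low (toFS Φ)
  rwa [← h.energy_eq, ← P370S.normSq_ofFS, energy_congr w _ Φ (amb_none_ae Φ),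
    normSq_congr _ Φ (amb_none_ae Φ), hΦ, mul_one, ← rep_inf h] at this

/-- normalized eigenvectors at the bottom of the spectrum are the minimisers of the form. -/
theorem rep_ground (h : Rep w V) (x : FS N) :
    IsGroundState w (ofFS x) ↔ JF N x ∈ groundSpace (ham w) ∧ ‖JF N x‖ = 1 := by
  rw [kit_ground h.kit h.ne]
  constructor
  · rintro ⟨h1, h2⟩
    have hn : ‖JF N x‖ = 1 := by
      rw [P370S.normSq_ofFS] at h1
      exact (pow_eq_one_iff_of_nonneg (norm_nonneg _) two_ne_zero).1 h1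
    refine ⟨⟨x, rfl, ?_⟩, hn⟩
    rw [hn, one_pow, mul_one, ← h.energy_eq]
    refine le_antisymm ?_ (rep_low h _ h1)
    rw [rep_inf h]
    refine le_csInf h.ne ?_
    rintro _ ⟨y, hy, rfl⟩
    rw [← h.energy_eq]
    exact h2 _ (by rw [P370S.normSq_ofFS, hy, one_pow])
  · rintro ⟨⟨y, hy, h1⟩, hn⟩
    obtain rfl : y = x := JF_inj N hy
    refine ⟨by rw [P370S.normSq_ofFS, hn, one_pow], fun Φ hΦ => ?_⟩
    rw [h.energy_eq, h1, hn, one_pow, mul_one]
    exact rep_low h Φ hΦ

end

end Vale.Agent.P363W18
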