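import Vale.Agent.P363W18.Den
import Vale.Agent.P363W18.Pot
import Vale.Agent.P363.R.Final

/-! The literal form of the question. -/

namespace Vale.Agent.P363W18

open MeasureTheory Filter Topology Vale.Agent.P363.Stmt Vale.Agent.P370S
open Vale.Agent.P363.H382
open Vale.Agent.P363L (infSpec groundSpace IsState IsEnsemble IsPotential)
open scoped ComplexConjugate

noncomputable section

attribute [local instance] complete

variable {n : ℕ}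

theorem ham_spec {w : Conf (n + 1) → ℝ} (h : IsPotential w) :
    IsClosedForm w ∧ ((ham w).graph : Set (Fer (n + 1) × Fer (n + 1))) = formGraph w ∧
      IsSelfAdjoint (ham w) ∧ (∀ z ∈ spec (ham w), z.im = 0) ∧
      IsLeast {t : ℝ | (t : ℂ) ∈ spec (ham w)} (infSpec (ham w)) ∧
      IsGLB {t | ∃ ψ, InH1 ψ ∧ ‖ψ‖ = 1 ∧ (form w ψ ψ).re = t} (infSpec (ham w)) := by
  obtain ⟨V, h⟩ := h.rep
  refine ⟨h.closedForm, h.graph_eq, h.kit.selfAdjoint, fun z hz => h.kit.im_zero hz, ?_, ?_⟩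
  · rw [rep_inf h]
    exact h.isLeast
  · have e : {t | ∃ ψ, InH1 ψ ∧ ‖ψ‖ = 1 ∧ (form w ψ ψ).re = t} = vals (JF _) (opB V) := by
      ext t
      constructor
      · rintro ⟨ψ, h1, h2, h3⟩
        obtain ⟨u, rfl⟩ := inH1_iff.1 h1
        exact ⟨u, h2, by rw [← h.form_eq, h3]⟩
      · rintro ⟨u, h2, h3⟩
        exact ⟨_, inH1_iff.2 ⟨u, rfl⟩, h2, by rw [h.form_eq, h3]⟩
    rw [e, rep_inf h]
    exact isGLB_csInf h.ne h.kit.bdd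

theorem ens_mix {w : Conf (n + 1) → ℝ} (h : IsPotential w) {Γ : Fer (n + 1) →L[ℂ] Fer (n + 1)}
    (hΓ : IsEnsemble (ham w) Γ) : ∃ ψ : ℕ → Fer (n + 1), (∀ k, ψ k ∈ groundSpace (ham w)) ∧
      HasSum (fun k => ‖ψ k‖ ^ 2) 1 ∧ (∀ f, HasSum (fun k => inner ℂ (ψ k) f • ψ k) (Γ f)) ∧
      IsDensity Γ fun r => ∑' k, dens (ψ k) r := by
  obtain ⟨V, hV⟩ := h.rep
  obtain ⟨K, hK, hKe⟩ := kit_closed hV.kit
  obtain ⟨ψ, h1, h2, h3⟩ := hΓ.1.mix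
  have hKm : ∀ u, u ∈ K ↔ u ∈ groundSpace (ham w) := fun u => Set.ext_iff.1 hKe u
  exact ⟨ψ, fun k => (hKm _).1 (h3 K hK (fun f => (hKm _).2 (hΓ.2 f)) k), h1, h2,
    (mix_density ψ h1 Γ h2).1⟩

theorem state_trace {N : ℕ} {Γ : Fer N →L[ℂ] Fer N} (h : IsState Γ) (ι : Type)
    (b : HilbertBasis ι ℂ (Fer N)) : HasSum (fun j => inner ℂ (b j) (Γ (b j))) 1 := by
  obtain ⟨ψ, h1, h2, -⟩ := h.mix
  have h3 := (trace_mix ψ h1.summable Γ 1 h2 b).2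
  have h4 : HasSum (fun k => inner ℂ (ψ k) ((1 : Fer N →L[ℂ] Fer N) (ψ k))) 1 := by
    have h5 := Complex.hasSum_ofReal.2 h1
    have e : ∀ k, inner ℂ (ψ k) ((1 : Fer N →L[ℂ] Fer N) (ψ k)) = ((‖ψ k‖ ^ 2 : ℝ) : ℂ) := by
      intro k
      rw [Complex.ofReal_pow]
      exact inner_self_eq_norm_sq_to_K (𝕜 := ℂ) (ψ k)
    simpa only [e, Complex.ofReal_one] using h5
  rwa [h4.tsum_eq] at h3

theorem state_density {Γ : Fer (n + 1) →L[ℂ] Fer (n + 1)} (h : IsState Γ) :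
    ∃ ρ, IsDensity Γ ρ ∧ (∀ r, 0 ≤ ρ r) ∧ ∫ r, ρ r = n + 1 ∧
      ∀ ρ', IsDensity Γ ρ' → AE3 fun r => ρ' r = ρ r := by
  obtain ⟨ψ, h1, h2, -⟩ := h.mix
  obtain ⟨h3, -, h4⟩ := mix_density ψ h1 Γ h2
  exact ⟨_, h3, fun r => tsum_nonneg fun k => dens_nonneg _ _, by rw [h4, mul_one],
    fun ρ' h' => h'.unique h3⟩

/-- ensembles are mixtures of minimisers. -/
theorem Representable.mix {ρ : R3 → ℝ} (h : Representable (n + 1) ρ) :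
    NonintEnsembleRepresentable n ρ := by
  obtain ⟨v, hv, Γ, ⟨hΓ, hr⟩, m, hm, hρ⟩ := h
  obtain ⟨V, hV⟩ := rep_sum (n := n) hv
  obtain ⟨K, hK, hKe⟩ := kit_closed hV.kit
  obtain ⟨ψ, h1, h2, h3⟩ := hΓ.mix
  have hKm : ∀ u, u ∈ K ↔ u ∈ groundSpace (ham (sumPotential v : Conf (n + 1) → ℝ)) :=
    fun u => Set.ext_iff.1 hKe u
  have h4 := h3 K hK fun f => (hKm _).2 (hr f)
  obtain ⟨h5, h6, -⟩ := mix_density ψ h1 Γ h2
  have key : ∀ u ∈ K, u ≠ 0 → ∃ Φ : ElectronState (n + 1), IsGroundState (sumPotential v) Φ ∧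
      ∀ᵐ r, ‖u‖ ^ 2 * density Φ r = dens u r := by
    intro u hu h0
    have hn : ‖u‖ ≠ 0 := norm_ne_zero_iff.2 h0
    have hu' := (hKm _).1 (K.smul_mem ((‖u‖⁻¹ : ℝ) : ℂ) hu)
    obtain ⟨x, hx, -⟩ := (kit_ground hV.kit hV.ne).1 hu'
    refine ⟨ofFS x, (rep_ground hV x).2 ⟨hx ▸ hu', ?_⟩, ?_⟩
    · rw [hx, norm_smul, Complex.norm_real, norm_inv, norm_norm, inv_mul_cancel₀ hn]
    · have e : density (ofFS x) = dens (JF _ x) := rfl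
      rw [e, hx]
      filter_upwards [dens_smul ((‖u‖⁻¹ : ℝ) : ℂ) u] with r hr
      rw [hr, Complex.norm_real, norm_inv, norm_norm]
      field_simp
  obtain ⟨k₀, hk₀⟩ : ∃ k, ψ k ≠ 0 := by
    by_contra hh
    push Not at hh
    simp only [hh, norm_zero, ne_eq, OfNat.ofNat_ne_zero, not_false_eq_true, zero_pow] at h1
    exact zero_ne_one (hasSum_zero.unique h1)
  obtain ⟨Φ₀, hΦ₀, -⟩ := key _ (h4 k₀) hk₀
  have key2 : ∀ k, ∃ Φ : ElectronState (n + 1), IsGroundState (sumPotential v) Φ ∧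
      ∀ᵐ r, ‖ψ k‖ ^ 2 * density Φ r = dens (ψ k) r := by
    intro k
    by_cases h0 : ψ k = 0
    · refine ⟨Φ₀, hΦ₀, ?_⟩
      filter_upwards [dens_smul 0 (ψ k)] with r hr
      rw [zero_smul, ← h0] at hr
      rw [hr, h0]
      simp
    · exact key _ (h4 k) h0
  choose Φ hΦ hd using key2
  refine ⟨v, hv, fun k => ‖ψ k‖ ^ 2, Φ, fun k => sq_nonneg _, h1, hΦ, ?_⟩
  filter_upwards [hρ, hm.unique h5, h6, ae_all_iff.2 hd] with r a1 a2 a3 a4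
  simp only [a4]
  rw [a1, a2]
  exact a3.hasSum

theorem dens_toFS (Ψ : ElectronState (n + 1)) :
    dens (JF _ (toFS Ψ)) =ᵐ[volume] density Ψ := by
  refine ae_eq_of_pair (dens_int _) (integrable_density Ψ) fun φ h1 ⟨C, h2⟩ => ?_
  have hi : ∀ s, Integrable fun x : Conf (n + 1) => φ (x 0) * ‖Ψ.amp s x‖ ^ 2 := fun s =>
    (integrable_normSq Ψ s).bdd_mul (c := C) (h1.comp (measurable_pi_apply 0)).aestronglyMeasurable
      (Eventually.of_forall fun x => h2 _)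
  rw [dens_real _ h1 h2, ← potE_zero_eq Ψ φ hi, ← potE_sumPotential Ψ φ hi, potE_toFS]
  rfl

theorem atoms : ∃ Z₀ : ℕ, ∀ Z : ℕ, Z₀ ≤ Z → ∃ ψ : Fer 5,
    ψ ∈ groundSpace (ham (coulombPotential (fun _ : Fin 1 => Z) fun _ => 0)) ∧ ‖ψ‖ = 1 ∧
      ¬ Representable 5 (dens ψ) := by
  obtain ⟨Z₀, h⟩ := P363.R.Final.main.1
  refine ⟨Z₀, fun Z hZ => ?_⟩
  obtain ⟨Ψ, h1, h2⟩ := h Z hZ
  obtain ⟨V, hV⟩ := (hd_coul (N := 5) (fun _ : Fin 1 => Z) fun _ => 0).rep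
  have h3 : IsGroundState (coulombPotential (fun _ : Fin 1 => Z) fun _ => 0) (ofFS (toFS Ψ)) := by
    refine ⟨(normSq_congr _ Ψ (amb_none_ae Ψ)).trans h1.1, fun Φ hΦ => ?_⟩
    rw [energy_congr _ _ Ψ (amb_none_ae Ψ)]
    exact h1.2 Φ hΦ
  obtain ⟨h4, h5⟩ := (rep_ground hV _).1 h3
  refine ⟨_, h4, h5, fun h6 => h2 ?_⟩
  obtain ⟨v, hv, p, Φ, a1, a2, a3, a4⟩ := Representable.mix (n := 4) h6
  refine ⟨v, hv, p, Φ, a1, a2, a3, ?_⟩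
  filter_upwards [a4, dens_toFS (n := 4) Ψ] with r b1 b2
  rwa [← b2]

end

end Vale.Agent.P363W18
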