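import Mathlib.Analysis.InnerProductSpace.Positive
import Vale.Agent.P370S.St
import Vale.Agent.P370S.Defs

/-! The `N`-electron Hilbert space, the Hamiltonians, ground-state ensembles as trace-class
operators, their densities, and the question. -/

namespace Vale.Agent.P363L

open MeasureTheory Vale.Agent.P363.Stmt Vale.Agent.P370T
open scoped ComplexConjugate

noncomputable section

section general

variable {E : Type} [NormedAddCommGroup E] [InnerProductSpace ℂ E]

/-- The bottom `inf σ(A)` of the (real) spectrum. -/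
def infSpec (A : E →ₗ.[ℂ] E) : ℝ := sInf {t : ℝ | (t : ℂ) ∈ spec A}

/-- The eigenspace of `A` at `inf σ(A)`. -/
def groundSpace (A : E →ₗ.[ℂ] E) : Set E := {u | (u, (infSpec A : ℂ) • u) ∈ A.graph}

/-- A positive trace-class operator of trace one: positive, and in an orthonormal basis the
diagonal entries have the sum one. -/
def IsState (Γ : E →L[ℂ] E) : Prop :=
  Γ.IsPositive ∧ ∃ (ι : Type) (b : HilbertBasis ι ℂ E), HasSum (fun j => inner ℂ (b j) (Γ (b j))) 1

/-- A ground-state ensemble of `A`: a positive trace-class operator of trace one whose range lies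
in the eigenspace of `A` at `inf σ(A)`. -/
def IsEnsemble (A : E →ₗ.[ℂ] E) (Γ : E →L[ℂ] E) : Prop :=
  IsState Γ ∧ ∀ f, Γ f ∈ groundSpace A

end general

variable {N : ℕ}

section sub

variable {K : Type} [NormedAddCommGroup K] [InnerProductSpace ℂ K]

/-- In the space `K` of spinors with components `a` the antisymmetric vectors form a subspace. -/
structure Lin (a : K → Spinor N) : Prop where
  zero : Anti (a 0)
  add : ∀ {φ ψ}, Anti (a φ) → Anti (a ψ) → Anti (a (φ + ψ))
  smul : ∀ (c : ℂ) {ψ}, Anti (a ψ) → Anti (a (c • ψ))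

/-- The subspace of the antisymmetric vectors. -/
def wedge {a : K → Spinor N} (h : Lin a) : Submodule ℂ K where
  carrier := {ψ | Anti (a ψ)}
  add_mem' := h.add
  zero_mem' := h.zero
  smul_mem' c _ hψ := h.smul c hψ

/-- The antisymmetric vectors, as a type. -/
def Wedge {a : K → Spinor N} (h : Lin a) : Type := wedge h

/-- The norm of the subspace. -/
@[reducible] def normedW {a : K → Spinor N} (h : Lin a) : NormedAddCommGroup (Wedge h) :=
  (wedge h).normedAddCommGroup

/-- The inner product of the subspace. -/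
@[reducible] def innerW {a : K → Spinor N} (h : Lin a) :
    @InnerProductSpace ℂ (Wedge h) _ (normedW h).toSeminormedAddCommGroup :=
  (wedge h).innerProductSpace

/-- The components of an antisymmetric vector. -/
def Wedge.cmp {a : K → Spinor N} {h : Lin a} (ψ : Wedge h) : Spinor N := a ψ.1

end sub

theorem lin_amp (N : ℕ) : Lin (amp N) :=
  ⟨(P370S.Fer N).zero_mem, (P370S.Fer N).add_mem, fun c _ h => (P370S.Fer N).smul_mem c h⟩

/-- The `N`-electron Hilbert space `⋀^N L²(ℝ³; ℂ²)`: the antisymmetric part of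
`L²((ℝ³ × spin)^N)`. -/
def HN (N : ℕ) : Type := Wedge (lin_amp N)

/-- The norm of the subspace. -/
instance normedHN (N : ℕ) : NormedAddCommGroup (HN N) := normedW (lin_amp N)

/-- The inner product of the subspace. -/
instance innerHN (N : ℕ) : InnerProductSpace ℂ (HN N) := innerW (lin_amp N)

/-- The wave function of a vector. -/
def wf (ψ : HN N) : Spinor N := Wedge.cmp ψ

/-- The form domain `H¹ ∩ ⋀^N L²`. -/
def H1 (N : ℕ) : Set (HN N) := {ψ | InH1 (wf ψ)}

/-- The form of `∑ᵢ -(1/2) Δᵢ + w`. -/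
def formH (w : Conf N → ℝ) (φ ψ : HN N) : ℂ := form w (wf φ) (wf ψ)

/-- The Hamiltonian `∑ᵢ -(1/2) Δᵢ + w`: the operator of the form. -/
def ham (w : Conf N → ℝ) : HN N →ₗ.[ℂ] HN N := formOp (H1 N) (formH w)

/-- `w` is the potential of a noninteracting Hamiltonian `H_s(v)`, `v ∈ L^{3/2} + L^∞`, or of a
Coulomb Hamiltonian `H_C`. -/
def IsPotential (w : Conf N → ℝ) : Prop :=
  (∃ v, MemV v ∧ w = sumPotential v) ∨
    ∃ (M : ℕ) (Z : Fin M → ℕ) (R : Fin M → R3), w = coulombPotential Z R

/-- The spin-summed one-body density `n_Ψ` of a vector of `n + 1` electrons. -/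
def dens {n : ℕ} (ψ : HN (n + 1)) (r : R3) : ℝ :=
  (n + 1 : ℝ) * ∑ s, intR fun y : Conf n => ‖wf ψ s (Fin.cons r y)‖ ^ 2

/-- `⟨ψ, (∑ᵢ φ(xᵢ)) η⟩`. -/
def oneBody (φ : R3 → ℝ) (ψ η : HN N) : ℂ :=
  ∑ s, intC fun x => sumPotential φ x * (conj (wf ψ s x) * wf η s x)

/-- Lebesgue integral over `ℝ³`. -/
def int3 (f : R3 → ℝ) : ℝ := ∫ r, f r ∂leb3.volume

/-- Bounded Borel functions on `ℝ³`. -/
def BddBorel (φ : R3 → ℝ) : Prop := Measurable φ ∧ ∃ C, ∀ r, |φ r| ≤ C

/-- `ρ` is the spin-summed one-body density `n_Γ`: it is integrable, and for every bounded Borel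
`φ` the trace of `(∑ᵢ φ(xᵢ)) Γ`, in every orthonormal basis, is `∫ φ ρ`. -/
def IsDensity (Γ : HN N →L[ℂ] HN N) (ρ : R3 → ℝ) : Prop :=
  LpR3 1 ρ ∧ ∀ φ, BddBorel φ → ∀ (ι : Type) (b : HilbertBasis ι ℂ (HN N)),
    HasSum (fun j => oneBody φ (b j) (Γ (b j))) ((int3 fun r => φ r * ρ r : ℝ) : ℂ)

/-- `ρ` is noninteracting ensemble representable with `N` electrons: `ρ = n_Γ` almost everywhere
for some `v ∈ L^{3/2} + L^∞` and some ground-state ensemble `Γ` of `H_s(v)`. -/
def Representable (N : ℕ) (ρ : R3 → ℝ) : Prop :=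
  ∃ v, MemV v ∧ ∃ Γ : HN N →L[ℂ] HN N, IsEnsemble (ham (sumPotential v)) Γ ∧
    ∃ m, IsDensity Γ m ∧ AE3 fun r => ρ r = m r

/-- The assertion of the question: for every Coulomb molecule, the density of every normalized
ground state of `H_C` is noninteracting ensemble representable. -/
def Q1 : Prop :=
  ∀ (n M : ℕ), 1 ≤ M → ∀ Z : Fin M → ℕ, (∀ j, 1 ≤ Z j) → ∀ R : Fin M → R3,
    Function.Injective R → ∀ ψ : HN (n + 1), ψ ∈ groundSpace (ham (coulombPotential Z R)) →
      ‖ψ‖ = 1 → Representable (n + 1) (dens ψ)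

end

end Vale.Agent.P363L
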