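import Vale.Agent.P363W18.St

/-! Abbreviations for the statement. -/

namespace Vale.Agent.P363L

noncomputable section

variable {E : Type} [NormedAddCommGroup E] [InnerProductSpace ℂ E]

/-- In every orthonormal basis the diagonal entries have the sum one. -/
def TraceOne (Γ : E →L[ℂ] E) : Prop :=
  ∀ (ι : Type) (b : HilbertBasis ι ℂ E), HasSum (fun j => inner ℂ (b j) (Γ (b j))) 1

/-- `Γ = ∑ₖ |ψₖ⟩⟨ψₖ|` with `∑ₖ ‖ψₖ‖² = 1`. -/
def IsMixture (Γ : E →L[ℂ] E) (ψ : ℕ → E) : Prop :=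
  HasSum (fun k => ‖ψ k‖ ^ 2) 1 ∧ ∀ f, HasSum (fun k => inner ℂ (ψ k) f • ψ k) (Γ f)

/-- The operator `|ψ⟩⟨ψ|`. -/
def proj (ψ : E) : E →L[ℂ] E := InnerProductSpace.rankOne ℂ ψ ψ

/-- The bounded operators on the `N`-electron space. -/
abbrev Bdd (N : ℕ) : Type := HN N →L[ℂ] HN N

end

end Vale.Agent.P363L
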