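import Mathlib
import Vale.Agent.P363W18.Defs

/-! Positive trace-class operators are mixtures of vectors. -/

namespace Vale.Agent.P363W18

open Filter Topology
open Vale.Agent.P363L (infSpec groundSpace IsState IsEnsemble IsPotential)
open scoped ComplexConjugate

noncomputable section

variable {H : Type} [NormedAddCommGroup H] [InnerProductSpace ℂ H] [CompleteSpace H]

omit [CompleteSpace H] in
theorem hasSum_sq {κ : Type} (c : HilbertBasis κ ℂ H) (x : H) :
    HasSum (fun j => ‖inner ℂ (c j) x‖ ^ 2) (‖x‖ ^ 2) := by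
  have h := c.hasSum_inner_mul_inner x x
  have h2 := Complex.hasSum_re h
  rw [inner_self_eq_norm_sq_to_K] at h2
  convert h2 using 1
  · funext j
    rw [← inner_conj_symm x (c j), Complex.conj_mul']
    norm_cast
  · norm_cast

omit [CompleteSpace H] in
theorem summable_sq {ι κ : Type} (x : ι → H) (hx : Summable fun i => ‖x i‖ ^ 2)
    (c : HilbertBasis κ ℂ H) : Summable fun p : ι × κ => ‖inner ℂ (c p.2) (x p.1)‖ ^ 2 := by
  have h1 : ∀ i, HasSum (fun j => ‖inner ℂ (c j) (x i)‖ ^ 2) (‖x i‖ ^ 2) :=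
    fun i => hasSum_sq c (x i)
  have h0 : (0 : ι × κ → ℝ) ≤ fun p : ι × κ => ‖inner ℂ (c p.2) (x p.1)‖ ^ 2 :=
    fun p => sq_nonneg _
  rw [summable_prod_of_nonneg h0]
  refine ⟨fun i => (h1 i).summable, hx.congr fun i => (h1 i).tsum_eq.symm⟩

omit [CompleteSpace H] in
/-- the trace of `M Γ` for a mixture `Γ`. -/
theorem trace_mix {ι κ : Type} (ψ : ι → H) (hψ : Summable fun i => ‖ψ i‖ ^ 2) (Γ M : H →L[ℂ] H)
    (hΓ : ∀ f, HasSum (fun i => inner ℂ (ψ i) f • ψ i) (Γ f)) (c : HilbertBasis κ ℂ H) :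
    (Summable fun i => inner ℂ (ψ i) (M (ψ i))) ∧
      HasSum (fun j => inner ℂ (c j) (M (Γ (c j)))) (∑' i, inner ℂ (ψ i) (M (ψ i))) := by
  let F : ι × κ → ℂ := fun p => inner ℂ (ψ p.1) (c p.2) * inner ℂ (c p.2) (M (ψ p.1))
  have h1 := summable_sq ψ hψ c
  have h2 : Summable fun p : ι × κ => ‖inner ℂ (c p.2) (M (ψ p.1))‖ ^ 2 := by
    refine summable_sq (fun i => M (ψ i)) ?_ c
    refine Summable.of_nonneg_of_le (fun i => sq_nonneg _) (fun i => ?_) (hψ.mul_left (‖M‖ ^ 2))
    rw [← mul_pow]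
    gcongr
    exact M.le_opNorm _
  have hF : Summable F := by
    refine Summable.of_norm_bounded (h1.add h2) fun p => ?_
    simp only [F, norm_mul]
    rw [norm_inner_symm (ψ p.1)]
    nlinarith [sq_nonneg (‖inner ℂ (c p.2) (ψ p.1)‖ - ‖inner ℂ (c p.2) (M (ψ p.1))‖),
      mul_nonneg (norm_nonneg (inner ℂ (c p.2) (ψ p.1)))
        (norm_nonneg (inner ℂ (c p.2) (M (ψ p.1))))]
  have h3 : HasSum (fun i => inner ℂ (ψ i) (M (ψ i))) (∑' p, F p) :=
    hF.hasSum.prod_fiberwise fun i => c.hasSum_inner_mul_inner (ψ i) (M (ψ i))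
  refine ⟨h3.summable, ?_⟩
  rw [h3.tsum_eq]
  have h4 : HasSum (fun p : κ × ι => F p.swap) (∑' p, F p) :=
    (Equiv.prodComm κ ι).hasSum_iff.2 hF.hasSum
  refine h4.prod_fiberwise fun j => ?_
  have h5 := ((innerSL ℂ (c j)).comp M).hasSum (hΓ (c j))
  simpa [F] using h5

theorem exists_seq {ι : Type} (x : ι → H) (hx : Summable fun i => ‖x i‖ ^ 2) :
    ∃ ψ : ℕ → H, (∀ k, ψ k = 0 ∨ ∃ i, ψ k = x i) ∧
      ∀ {G : Type} [NormedAddCommGroup G] (F : H → G), F 0 = 0 → ∀ a,
        HasSum (fun i => F (x i)) a → HasSum (fun k => F (ψ k)) a := by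
  have hc : (Function.support fun i => ‖x i‖ ^ 2).Countable := hx.countable_support
  set T := Function.support fun i => ‖x i‖ ^ 2 with hT
  have : Countable T := hc.to_subtype
  obtain ⟨e, he⟩ := exists_injective_nat T
  refine ⟨Function.extend e (fun i => x i) 0, fun k => ?_, fun F hF a ha => ?_⟩
  · by_cases h : ∃ i, e i = k
    · obtain ⟨i, rfl⟩ := h
      exact Or.inr ⟨i, he.extend_apply _ _ _⟩
    · exact Or.inl (Function.extend_apply' _ _ _ h)
  · rw [← he.hasSum_iff]
    · have h1 : HasSum ((fun i => F (x i)) ∘ ((↑) : T → ι)) a := by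
        refine (hasSum_subtype_iff_of_support_subset fun i hi => ?_).2 ha
        intro h0
        apply hi
        have : x i = 0 := by simpa using h0
        simp only [this, hF]
      convert h1 using 1
      funext i
      simp only [Function.comp_apply, he.extend_apply]
    · intro k hk
      rw [Function.extend_apply' _ _ _ hk]
      exact hF

/-- a state is a countable mixture of vectors in each closed subspace containing its range. -/
theorem _root_.Vale.Agent.P363L.IsState.mix {Γ : H →L[ℂ] H} (h : IsState Γ) :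
    ∃ ψ : ℕ → H, HasSum (fun k => ‖ψ k‖ ^ 2) 1 ∧
      (∀ f, HasSum (fun k => inner ℂ (ψ k) f • ψ k) (Γ f)) ∧
      ∀ K : Submodule ℂ H, IsClosed (K : Set H) → (∀ f, Γ f ∈ K) → ∀ k, ψ k ∈ K := by
  obtain ⟨hp, ι, b, hb⟩ := h
  have h0 : 0 ≤ Γ := (ContinuousLinearMap.nonneg_iff_isPositive Γ).2 hp
  set S : H →L[ℂ] H := CFC.sqrt Γ with hS
  have hSS : ∀ f, S (S f) = Γ f := fun f => by
    rw [← ContinuousLinearMap.mul_apply, hS, CFC.sqrt_mul_sqrt_self Γ h0]
  have hsa : IsSelfAdjoint S := IsSelfAdjoint.of_nonneg (CFC.sqrt_nonneg Γ)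
  have hsy : ∀ f g, inner ℂ (S f) g = inner ℂ f (S g) := hsa.isSymmetric
  have hn : ∀ f, inner ℂ f (Γ f) = ((‖S f‖ ^ 2 : ℝ) : ℂ) := fun f => by
    rw [← hSS, ← hsy, inner_self_eq_norm_sq_to_K]
    push_cast
    rfl
  have h1 : HasSum (fun i => ‖S (b i)‖ ^ 2) 1 := by
    simp only [hn] at hb
    simpa only [Complex.ofReal_re, Complex.one_re] using Complex.hasSum_re hb
  obtain ⟨ψ, hψ, hF⟩ := exists_seq (fun i => S (b i)) h1.summable
  refine ⟨ψ, hF (fun x => ‖x‖ ^ 2) (by simp) 1 h1, fun f => ?_, fun K hK hΓ k => ?_⟩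
  · refine hF (fun x => inner ℂ x f • x) (by simp) _ ?_
    have h2 := S.hasSum (b.hasSum_repr (S f))
    rw [hSS] at h2
    simpa only [map_smul, b.repr_apply_apply, hsy] using h2
  · rcases hψ k with h | ⟨i, h⟩
    · rw [h]
      exact K.zero_mem
    · have : CompleteSpace K := hK.completeSpace_coe
      rw [h, ← K.orthogonal_orthogonal, Submodule.mem_orthogonal]
      intro y hy
      have h3 : inner ℂ y (Γ y) = 0 := Submodule.inner_left_of_mem_orthogonal (hΓ y) hy
      rw [hn] at h3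
      have h4 : S y = 0 := by simpa using h3
      rw [← hsy, h4, inner_zero_left]

/-- the projection onto a unit vector is a state. -/
theorem isState_rankOne {u : H} (hu : ‖u‖ = 1) : IsState (InnerProductSpace.rankOne ℂ u u) := by
  refine ⟨InnerProductSpace.isPositive_rankOne_self u, ?_⟩
  obtain ⟨w, b, -⟩ := exists_hilbertBasis ℂ H
  refine ⟨w, b, ?_⟩
  have h := b.hasSum_inner_mul_inner u u
  rw [inner_self_eq_norm_sq_to_K, hu] at h
  simpa [InnerProductSpace.rankOne_apply, inner_smul_right] using h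

end

end Vale.Agent.P363W18
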